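import Vale.Agent.P286ER6.Wt
import Vale.Agent.P286.H527.Euler
import Vale.Agent.P286.H527.Smth

/-!
# Unstable points have a one-parameter group of automorphisms of nonzero weight
-/

namespace Vale.Agent.P286ER6

open CategoryTheory Matrix LaurentPolynomial Vale.Agent.P286 Vale.Agent.P286E Vale.Agent.P286ER

noncomputable section

variable {A B : Type} [CommRing A] [CommRing B] {E : Ell} {G : Grp}

theorem poly_mem {N : ℕ} {M : Submodule A (Fin N → Ls A)} {H : Matrix (Fin N) (Fin N) (Ls A)}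
    (h : ∀ m ∈ M, H *ᵥ m ∈ M) (c : Fin 3 → A) : ∀ m ∈ M, (∑ i, c i • H ^ (i : ℕ)) *ᵥ m ∈ M := by
  intro m hm
  have hp : ∀ k : ℕ, (H ^ k) *ᵥ m ∈ M := fun k => by
    induction k with
    | zero => rwa [pow_zero, one_mulVec]
    | succ k ih =>
      rw [pow_succ', ← mulVec_mulVec]
      exact h _ ih
  rw [← act_apply, Fin.sum_univ_three, act_add, act_add, act_smul, act_smul, act_smul]
  exact add_mem (add_mem (M.smul_mem _ (hp _)) (M.smul_mem _ (hp _))) (M.smul_mem _ (hp _))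

theorem poly_int {N : ℕ} {H : Matrix (Fin N) (Fin N) (Ls A)} (h : IntM H) (c : Fin 3 → A) :
    IntM (∑ i, c i • H ^ (i : ℕ)) := by
  have hp : ∀ k : ℕ, IntM (H ^ k) := fun k => by
    induction k with
    | zero => exact pow_zero H ▸ IntM.one
    | succ k ih => exact pow_succ H k ▸ ih.mul h
  intro a b
  rw [Matrix.sum_apply]
  exact Ord.sum _ fun i _ => (hp i a b).smul (c i)

theorem dot_lm (f : A →+* B) {h : Fin 3 → Ls A} (hh : h ⬝ᵥ h = 1) :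
    (lm f ∘ h) ⬝ᵥ (lm f ∘ h) = 1 := by
  rw [← RingHom.map_dotProduct, hh, map_one]

variable [Algebra ℂ A] [Algebra ℂ B]

theorem rot_bc (f : A →ₐ[ℂ] B) {T : ℕ × Fin 3 → Fin 3 → Ls A} {h : Fin 3 → Ls A}
    (h1 : ∀ ξ ∈ LinearMap.range (lin T), rot h *ᵥ ξ ∈ LinearMap.range (lin T)) :
    ∀ ξ ∈ LinearMap.range (lin fun p => lm (f : A →+* B) ∘ T p), rot (lm (f : A →+* B) ∘ h) *ᵥ ξ ∈
      LinearMap.range (lin fun p => lm (f : A →+* B) ∘ T p) := by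
  rw [← bcM_range, ← rot_map]
  exact mulVec_mem_bcM _ fun m hm => by
    rw [← lm_mulVec]
    exact mem_bcM _ (h1 m hm)

/-- The evaluation of Laurent polynomials. -/
def evA {F : Type} [Field F] [Algebra ℂ F] (π : B →ₐ[ℂ] F) (τ : Fˣ) : B[T;T⁻¹] →ₐ[ℂ] F :=
  { LaurentPolynomial.eval₂ (π : B →+* F) τ with
    commutes' := fun c => (LaurentPolynomial.eval₂_C (π : B →+* F) τ _).trans (π.commutes c) }

/-- The weight over the ring of Laurent polynomials. -/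
theorem wt_lau {F : Type} [Field F] [Algebra ℂ F] {π : B →ₐ[ℂ] F} (hπ : Function.Injective π)
    {S : ℕ × Fin 3 → Fin 3 → Ls B} (hS : Adm S) {h : Fin 3 → Ls B}
    (h1 : ∀ ξ ∈ LinearMap.range (lin S), rot h *ᵥ ξ ∈ LinearMap.range (lin S)) {n : ℕ}
    (hw : ∀ τ τ' : F, τ * τ' = 1 → fdet (chg (fun p => lm (π : B →+* F) ∘ S p)
      (gau (pr τ τ' (lm (π : B →+* F) ∘ h)) (pr τ' τ (lm (π : B →+* F) ∘ h))
        fun p => lm (π : B →+* F) ∘ S p)) = τ ^ (2 * n))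
    {a a' : Matrix (Fin 3) (Fin 3) (Ls B[T;T⁻¹])}
    (ha : a = pr (T 1) (T (-1)) (lm (Calg B : B →+* B[T;T⁻¹]) ∘ h))
    (ha' : a' = pr (T (-1)) (T 1) (lm (Calg B : B →+* B[T;T⁻¹]) ∘ h))
    (hi : IntM a) (hi' : IntM a') (e : a * a' = 1) (e' : a' * a = 1) :
    fdet (chg (fun p => lm (Calg B : B →+* B[T;T⁻¹]) ∘ S p)
      (gau a a' fun p => lm (Calg B : B →+* B[T;T⁻¹]) ∘ S p)) = T (2 * n) := by
  have : CharZero F := charZero_of_injective_algebraMap (algebraMap ℂ F).injective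
  have hZ := hS.bc (Calg B : B →+* B[T;T⁻¹])
  have hle : LinearMap.range (lin (gau a a' fun p => lm (Calg B : B →+* B[T;T⁻¹]) ∘ S p)) ≤
      LinearMap.range (lin fun p => lm (Calg B : B →+* B[T;T⁻¹]) ∘ S p) := by
    rw [range_gau hi hi' e']
    rintro _ ⟨ξ, hξ, rfl⟩
    rw [act_apply, ha]
    exact pr_mem (rot_bc (Calg B) h1) _ _ ξ hξ
  refine sub_eq_zero.1 (laurent_eq_zero (π := (π : B →+* F)) hπ fun τ => ?_)
  have hc : ((evA π τ : B[T;T⁻¹] →ₐ[ℂ] F) : B[T;T⁻¹] →+* F).comp (Calg B : B →+* B[T;T⁻¹]) =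
      (π : B →+* F) := RingHom.ext fun b => LaurentPolynomial.eval₂_C (π : B →+* F) τ b
  have hl : ∀ w : Fin 3 → Ls B, lm ((evA π τ : B[T;T⁻¹] →ₐ[ℂ] F) : B[T;T⁻¹] →+* F) ∘
      (lm (Calg B : B →+* B[T;T⁻¹]) ∘ w) = lm (π : B →+* F) ∘ w := fun w => funext fun i => by
    rw [Function.comp_apply, Function.comp_apply, lm_lm, hc]
    rfl
  have h2 := fdet_bc ((evA π τ : B[T;T⁻¹] →ₐ[ℂ] F) : B[T;T⁻¹] →+* F)
    ((hZ.gau hi hi' e e').finRank_chg hZ hle)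
  have t1 : evA π τ (T 1) = τ := (eval₂_T (π : B →+* F) τ 1).trans (by simp)
  have t2 : evA π τ (T (-1)) = (τ⁻¹ : Fˣ) := (eval₂_T (π : B →+* F) τ (-1)).trans (by simp)
  rw [← hZ.bc_chg hle, lm_gau, ha, ha', pr_map, pr_map, t1, t2] at h2
  simp only [hl] at h2
  rw [hw _ _ τ.mul_inv, ← ha, ← ha'] at h2
  rw [map_sub, eval₂_T, sub_eq_zero]
  refine h2.symm.trans ?_
  rw [← Units.val_pow_eq_pow_val, ← zpow_natCast]
  rfl

theorem gmAt (hO : ONEP) (hG : G = SL2 ∨ G = SO3) (c : ℂ) (Y : Ob E G) {h : Fin 3 → Ls Y.A.R}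
    (hm : h ∈ LinearMap.range (lin Y.T)) (h0 : ∀ i, Ord 0 (h i)) (hh : h ⬝ᵥ h = 1)
    (h1 : ∀ ξ ∈ LinearMap.range (lin Y.T), rot h *ᵥ ξ ∈ LinearMap.range (lin Y.T))
    {F : Type} [Field F] [Algebra ℂ F] {π : Y.A.R →ₐ[ℂ] F} (hπ : Function.Injective π) {n : ℕ}
    (hn : 0 < n)
    (hw : ∀ τ τ' : F, τ * τ' = 1 → fdet (chg (fun p => lm (π : Y.A.R →+* F) ∘ Y.T p)
      (gau (pr τ τ' (lm (π : Y.A.R →+* F) ∘ h)) (pr τ' τ (lm (π : Y.A.R →+* F) ∘ h))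
        fun p => lm (π : Y.A.R →+* F) ∘ Y.T p)) = τ ^ (2 * n)) : GmAt (DE E G c) Y := by
  have ok := Grp.ok_of hG
  let L : SmAlg := ⟨(Y.A.R)[T;T⁻¹]⟩
  let Z : Ob E G := Y.bc L (Calg Y.A.R)
  let k : Fin 3 → Ls L.R := lm (Calg Y.A.R : Y.A.R →+* (Y.A.R)[T;T⁻¹]) ∘ h
  have hk : k ∈ LinearMap.range (lin Z.T) := (bcM_range _ Y.T).le (mem_bcM _ hm)
  have k0 : ∀ i, Ord 0 (k i) := fun i => (h0 i).lm _
  have k1 : ∀ ξ ∈ LinearMap.range (lin Z.T), rot k *ᵥ ξ ∈ LinearMap.range (lin Z.T) :=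
    rot_bc (Calg Y.A.R) h1
  obtain ⟨u, u', a, a', ea, ea', hi, d, d', f, f', j, j', r, r', -, -⟩ :=
    hO G hG L.R k (dot_lm _ hh) (T 1) (T (-1)) (by rw [← T_add]; rfl)
  have hM : ∀ m ∈ Z.M, G.hat k *ᵥ m ∈ Z.M := (isOb Z).le_lieS hk
  have ia : IntM a := ea ▸ poly_int (IntM.hat k0) u
  have ia' : IntM a' := ea' ▸ poly_int (IntM.hat k0) u'
  let σ : Mo Z Z := Mo.mk' ok (SmAlg.Hm.id L) a ia ⟨d, f⟩
    (fun m hm => ea ▸ poly_mem hM u m hm)
    fun p => r ▸ pr_mem k1 (T 1) (T (-1)) _ (mem_range_lin Z.T p)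
  let σ' : Mo Z Z := Mo.mk' ok (SmAlg.Hm.id L) a' ia' ⟨d', f'⟩
    (fun m hm => ea' ▸ poly_mem hM u' m hm)
    fun p => r' ▸ pr_mem k1 (T (-1)) (T 1) _ (mem_range_lin Z.T p)
  refine ⟨Z, Y.toBc L (Calg Y.A.R), σ, σ', AlgEquiv.refl, -(2 * n), by omega, fun _ => rfl,
    Y.dl_toBc ok L _, rfl, Mo.ext rfl hi, ?_⟩
  have ga : InG G a := ⟨d, f⟩
  have e := wt_lau hπ Y.admT h1 hw r (j ▸ r' : G.ad a.adjugate = _) ia.ad ia.adjugate.ad
    (ok.ad_mul_adj ga) (ok.ad_adj_mul ga)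
  refine (σ.dl_eq.trans (congrArg Ring.inverse e)).trans ?_
  change Ring.inverse (T (2 * n) : (Y.A.R)[T;T⁻¹]) = T (-(2 * n))
  refine ((Ring.eq_mul_inverse_iff_mul_eq _ 1 _ (isUnit_T _)).2 ?_).symm.symm.trans (one_mul _) |>.symm
  rw [← T_add, neg_add_cancel, T_zero]

/-- Clearing the denominators of a vector with finitely many coordinates. -/
theorem exists_den {D F I : Type} [CommRing D] [IsDomain D] [Field F] [Algebra D F]
    [IsFractionRing D F] (z : I →₀ F) : ∃ d : D, d ≠ 0 ∧ ∀ i, ∃ a, algebraMap D F a =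
      algebraMap D F d * z i := by
  classical
  obtain ⟨⟨d, hd⟩, h⟩ := IsLocalization.exist_integer_multiples_of_finset (nonZeroDivisors D)
    (z.support.image z)
  refine ⟨d, nonZeroDivisors.ne_zero hd, fun i => ?_⟩
  by_cases hi : i ∈ z.support
  · obtain ⟨a, ha⟩ := h _ (Finset.mem_image_of_mem z hi)
    exact ⟨a, ha.trans (Algebra.smul_def _ _)⟩
  · exact ⟨0, by rw [Finsupp.notMem_support_iff.1 hi, mul_zero, map_zero]⟩

theorem unst (hF : FLD) (hW : WEIGHT) (hO : ONEP) : UNST := by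
  intro E G hG c X p hp hS
  have : Algebra.FiniteType ℂ X.A.R := inferInstance
  have : Algebra.FiniteType ℂ (X.A.R ⧸ p) :=
    Algebra.FiniteType.of_surjective (Ideal.Quotient.mkₐ ℂ p) (Ideal.Quotient.mkₐ_surjective ℂ p)
  let D := X.A.R ⧸ p
  let F := FractionRing D
  let π : X.A.R →ₐ[ℂ] F := (IsScalarTower.toAlgHom ℂ D F).comp (Ideal.Quotient.mkₐ ℂ p)
  have hinj := IsFractionRing.injective D F
  have hπ : ∀ a, π a = 0 ↔ a ∈ p := fun a =>
    (map_eq_zero_iff _ hinj).trans Ideal.Quotient.eq_zero_iff_mem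
  obtain ⟨_, ⟨⟨z, rfl⟩, h0⟩, hh, h1, h2, h3, h4⟩ :=
    hF E G hG F _ _ ((isOb X).bc π) (hS F π hπ)
  obtain ⟨n, hn, hw⟩ := wt_field hW (X.admT.bc _) h0 hh h1 h2 h3 h4
  obtain ⟨d₂, hd₂, hz⟩ := exists_den (D := D) z
  obtain ⟨d₁, hne, hsm⟩ := exists_smooth_loc d₂ hd₂
  obtain ⟨g, hg⟩ := Ideal.Quotient.mk_surjective (d₂ * d₁)
  let B := Localization.Away (d₂ * d₁)
  let f : X.A.R →ₐ[ℂ] B := (IsScalarTower.toAlgHom ℂ D B).comp (Ideal.Quotient.mkₐ ℂ p)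
  have hu : IsUnit (algebraMap D F (d₂ * d₁)) := ((map_ne_zero_iff _ hinj).2 hne).isUnit
  have hle : Submonoid.powers (d₂ * d₁) ≤ nonZeroDivisors D := powers_le_nonZeroDivisors_of_noZeroDivisors hne
  let κ : B →ₐ[ℂ] F :=
    { IsLocalization.Away.lift (d₂ * d₁) hu with
      commutes' := fun x => IsLocalization.Away.lift_eq (d₂ * d₁) hu (algebraMap ℂ D x) }
  have hκ : ∀ x, κ (algebraMap D B x) = algebraMap D F x :=
    IsLocalization.Away.lift_eq (d₂ * d₁) hu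
  have hκi : Function.Injective κ := (injective_iff_map_eq_zero _).2 fun b hb => by
    obtain ⟨⟨x, s⟩, hx⟩ := IsLocalization.surj (Submonoid.powers (d₂ * d₁)) b
    have h5 := congrArg κ hx
    rw [map_mul, hb, zero_mul, hκ, eq_comm, map_eq_zero_iff _ hinj] at h5
    rw [h5, map_zero] at hx
    exact (IsLocalization.map_units B s).mul_left_eq_zero.1 hx
  have hκf : (κ : B →+* F).comp (f : X.A.R →+* B) = (π : X.A.R →+* F) := RingHom.ext fun a => hκ _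
  obtain ⟨w, hw'⟩ : ∃ w : Qm 3 B, w.mapRange (κ : B →+* F) (map_zero _) = z := by
    have : ∀ i, ∃ b : B, κ b = z i := fun i => by
      obtain ⟨a, ha⟩ := hz i
      obtain ⟨u, hu'⟩ := IsLocalization.Away.algebraMap_isUnit (S := B) (d₂ * d₁)
      refine ⟨algebraMap D B (a * d₁) * (u⁻¹ : Bˣ), hu.mul_left_cancel ?_⟩
      have e1 : algebraMap D B (d₂ * d₁) * (algebraMap D B (a * d₁) * (u⁻¹ : Bˣ)) =
          algebraMap D B (a * d₁) := by
        rw [← hu', mul_comm, Units.inv_mul_cancel_right]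
      have e2 := congrArg κ e1
      rw [map_mul, hκ, hκ] at e2
      rw [e2, map_mul, ha, map_mul]
      ring
    choose b hb using this
    refine ⟨Finsupp.onFinset z.support b fun i hi => Finsupp.mem_support_iff.2 fun h => hi
      (hκi (by rw [hb, h, map_zero])), Finsupp.ext hb⟩
  let Y : Ob E G := X.bc ⟨B⟩ f
  have hT : (fun q => lm (κ : B →+* F) ∘ Y.T q) = fun q => lm (π : X.A.R →+* F) ∘ X.T q := by
    rw [← hκf]
    rfl
  have hk : lm (κ : B →+* F) ∘ lin Y.T w = lin (fun q => lm (π : X.A.R →+* F) ∘ X.T q) z := by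
    rw [← hw', ← hT]
    exact lm_lin (κ : B →+* F) Y.T w
  rw [← hk] at h0 hh h1 hw
  rw [← hT] at h1 hw
  refine ⟨g, fun h => hne (hg ▸ Ideal.Quotient.eq_zero_iff_mem.2 h), Y, X.toBc ⟨B⟩ f,
    gmAt hO hG c Y (h := lin Y.T w) ⟨w, rfl⟩ (fun i k hk => hκi ((h0 i k hk).trans (map_zero κ).symm))
      (lm_injective (f := (κ : B →+* F)) hκi ?_) (fun ξ hξ => Y.admT.desc (f := (κ : B →+* F)) hκi ?_)
      hκi hn hw, fun a => ?_, ?_, fun b => ?_⟩
  · exact ((RingHom.map_dotProduct (lm (κ : B →+* F)) _ _).trans hh).trans (map_one _).symm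
  · have := h1 _ ((bcM_range _ Y.T).le (mem_bcM _ hξ))
    exact (congrArg (· ∈ _) ((lm_mulVec (κ : B →+* F) _ ξ).trans
      (congrArg (· *ᵥ _) (rot_map κ _)))).mpr this
  · exact (map_eq_zero_iff _ (IsLocalization.injective B hle)).trans Ideal.Quotient.eq_zero_iff_mem
  · change IsUnit (algebraMap D B (Ideal.Quotient.mk p g))
    rw [hg]
    exact IsLocalization.Away.algebraMap_isUnit _
  · obtain ⟨⟨x, _, m, rfl⟩, hx⟩ := IsLocalization.surj (S := B) (Submonoid.powers (d₂ * d₁)) b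
    obtain ⟨a, rfl⟩ := Ideal.Quotient.mk_surjective x
    refine ⟨a, m, ?_⟩
    have e : ∀ b : B, b * algebraMap D B ((d₂ * d₁) ^ m) =
        b * algebraMap D B (Ideal.Quotient.mk p g) ^ m := fun b => by rw [hg, ← map_pow]
    exact (e b).symm.trans hx

end

end Vale.Agent.P286ER6
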