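import Vale.Agent.P286EF.Ob
import Vale.Agent.P286ER4.Onep

/-!
# The weight of the one-parameter group on the determinant of the cohomology
-/

namespace Vale.Agent.P286ER6

open Matrix LaurentPolynomial Vale.Agent.P286 Vale.Agent.P286E Vale.Agent.P286ER

noncomputable section

variable {A B : Type} [CommRing A] [CommRing B] {N : ℕ}

theorem act_add (a b : Matrix (Fin N) (Fin N) (Ls A)) : act (a + b) = act a + act b :=
  LinearMap.ext fun v => add_mulVec a b v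

theorem act_smul (c : A) (a : Matrix (Fin N) (Fin N) (Ls A)) : act (c • a) = c • act a :=
  LinearMap.ext fun v => by
    rw [act_apply, P286ER4.smul_C, smul_mulVec, ← csmul]
    rfl

theorem pa_add (a b : Matrix (Fin N) (Fin N) (Ls A)) : pa (a + b) = pa a + pa b := by
  rw [pa, act_add, LinearMap.add_comp, LinearMap.comp_add]
  rfl

theorem pa_smul (c : A) (a : Matrix (Fin N) (Fin N) (Ls A)) : pa (c • a) = c • pa a := by
  rw [pa, act_smul, LinearMap.smul_comp, LinearMap.comp_smul]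
  rfl

/-- The action of a matrix in the coordinates of the basis `v`. -/
def ca (v : ℕ × Fin N → Fin N → Ls A) (a : Matrix (Fin N) (Fin N) (Ls A)) :
    Module.End A (Qm N A) := crd v ∘ₗ act a ∘ₗ lin v

variable {v : ℕ × Fin N → Fin N → Ls A}

theorem ca_add (a b : Matrix (Fin N) (Fin N) (Ls A)) : ca v (a + b) = ca v a + ca v b := by
  rw [ca, act_add, LinearMap.add_comp, LinearMap.comp_add]
  rfl

theorem ca_smul (c : A) (a : Matrix (Fin N) (Fin N) (Ls A)) : ca v (c • a) = c • ca v a := by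
  rw [ca, act_smul, LinearMap.smul_comp, LinearMap.comp_smul]
  rfl

theorem ca_one (hv : Adm v) : ca v 1 = 1 := by
  rw [ca, act_one, LinearMap.id_comp, hv.crd_comp]

theorem lin_ca (hv : Adm v) {a : Matrix (Fin N) (Fin N) (Ls A)}
    (h : ∀ ξ ∈ LinearMap.range (lin v), a *ᵥ ξ ∈ LinearMap.range (lin v)) (z : Qm N A) :
    lin v (ca v a z) = a *ᵥ lin v z := hv.lin_crd (h _ ⟨z, rfl⟩)

theorem ca_mul (hv : Adm v) (a : Matrix (Fin N) (Fin N) (Ls A)) {b : Matrix (Fin N) (Fin N) (Ls A)}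
    (h : ∀ ξ ∈ LinearMap.range (lin v), b *ᵥ ξ ∈ LinearMap.range (lin v)) :
    ca v (a * b) = ca v a * ca v b :=
  LinearMap.ext fun z => by
    change crd v ((a * b) *ᵥ lin v z) = crd v (a *ᵥ lin v (ca v b z))
    rw [lin_ca hv h, mulVec_mulVec]

theorem chg_gau (a b : Matrix (Fin N) (Fin N) (Ls A)) : chg v (gau a b v) = ca v a * pa b := by
  rw [chg, lin_gau]
  rfl

variable [Algebra ℂ A] [Algebra ℂ B]

/-- The adjoint matrix of the one-parameter group. -/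
def pr (τ τ' : A) (h : Fin 3 → Ls A) : Matrix (Fin 3) (Fin 3) (Ls A) :=
  1 + (algebraMap ℂ A 2⁻¹ * (τ ^ 2 - τ' ^ 2)) • rot h +
    (algebraMap ℂ A 2⁻¹ * (τ ^ 2 + τ' ^ 2) - 1) • (rot h * rot h)

theorem rot_map (f : A →ₐ[ℂ] B) (h : Fin 3 → Ls A) :
    (rot h).map (lm (f : A →+* B)) = rot (lm (f : A →+* B) ∘ h) := Grp.hat_map (G := SO3) f h

omit [Algebra ℂ A] [Algebra ℂ B] in
theorem map_csmul (f : A →+* B) (c : A) (a : Matrix (Fin N) (Fin N) (Ls A)) :
    (c • a).map (lm f) = f c • a.map (lm f) :=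
  Matrix.ext fun i j => P286E.lm_smul f c (a i j)

theorem pr_map (f : A →ₐ[ℂ] B) (τ τ' : A) (h : Fin 3 → Ls A) :
    (pr τ τ' h).map (lm (f : A →+* B)) = pr (f τ) (f τ') (lm (f : A →+* B) ∘ h) := by
  rw [pr, pr, Matrix.map_add _ (map_add _), Matrix.map_add _ (map_add _), map_csmul, map_csmul,
    Matrix.map_mul, rot_map, Matrix.map_one _ (map_zero _) (map_one _)]
  simp

theorem rot_cube {h : Fin 3 → Ls A} (hh : h ⬝ᵥ h = 1) : rot h * rot h * rot h = rot h := by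
  rw [rot, P286ER4.hat3]
  exact P286ER4.h3_cube P286ER4.im_sq hh

theorem intM_rot {h : Fin 3 → Ls A} (h0 : ∀ i, Ord 0 (h i)) : IntM (rot h) :=
  IntM.hat (G := SO3) h0

theorem pr_mem {h : Fin 3 → Ls A} {M : Submodule A (Fin 3 → Ls A)} (hM : ∀ ξ ∈ M, rot h *ᵥ ξ ∈ M)
    (τ τ' : A) : ∀ ξ ∈ M, pr τ τ' h *ᵥ ξ ∈ M := fun ξ hξ => by
  rw [← act_apply, pr, act_add, act_add, act_smul, act_smul, act_mul, act_one]
  exact add_mem (add_mem hξ (M.smul_mem _ (hM _ hξ))) (M.smul_mem _ (hM _ (hM _ hξ)))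

/-- The weight over a field. -/
theorem wt_field (hW : WEIGHT) {F : Type} [Field F] [Algebra ℂ F] {T : ℕ × Fin 3 → Fin 3 → Ls F}
    (hT : Adm T) {h : Fin 3 → Ls F} (h0 : ∀ i, Ord 0 (h i)) (hh : h ⬝ᵥ h = 1)
    (h1 : ∀ ξ ∈ LinearMap.range (lin T), rot h *ᵥ ξ ∈ LinearMap.range (lin T))
    (h2 : ∀ ξ, rot h *ᵥ ξ = ξ → ξ ∈ LinearMap.range (lin T) ⊔ On 3 F 0)
    (h3 : ∃ ξ ∈ LinearMap.range (lin T) ⊓ On 3 F 0, ξ ≠ 0 ∧ rot h *ᵥ ξ = ξ)
    (h4 : ∀ ξ ∈ LinearMap.range (lin T) ⊓ On 3 F 0, rot h *ᵥ ξ = -ξ → ξ = 0) :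
    ∃ n : ℕ, 0 < n ∧ ∀ τ τ' : F, τ * τ' = 1 →
      fdet (chg T (gau (pr τ τ' h) (pr τ' τ h) T)) = τ ^ (2 * n) := by
  have : CharZero F := charZero_of_injective_algebraMap (algebraMap ℂ F).injective
  have hR := intM_rot h0
  have e1 : ca T (rot h) * ca T (rot h) * ca T (rot h) = ca T (rot h) := by
    rw [← ca_mul hT _ h1, ← ca_mul hT _ h1, rot_cube hh]
  have e2 : pa (rot h) * pa (rot h) * pa (rot h) = pa (rot h) := by
    rw [← pa_mul hR, ← pa_mul (hR.mul hR), rot_cube hh]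
  have e3 : (pol 3 F ∘ₗ lin T) * ca T (rot h) = pa (rot h) * (pol 3 F ∘ₗ lin T) :=
    LinearMap.ext fun z => by
      change pol 3 F (lin T (ca T (rot h) z)) = pa (rot h) (pol 3 F (lin T z))
      rw [lin_ca hT h1, pa_pol hR]
  obtain ⟨n, hn, hτ⟩ := hW F (ℕ × Fin 3) (pol 3 F ∘ₗ lin T) (ca T (rot h)) (pa (rot h)) hT.1 e1 e2
    e3 (fun x hx => by
      have hw : rot h *ᵥ ((2⁻¹ : F) • ((rot h * rot h) *ᵥ lin (std 3 F) x +
          rot h *ᵥ lin (std 3 F) x)) = (2⁻¹ : F) • ((rot h * rot h) *ᵥ lin (std 3 F) x +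
          rot h *ᵥ lin (std 3 F) x) := by
        rw [mulVec_csmul, mulVec_add, mulVec_mulVec, mulVec_mulVec, ← Matrix.mul_assoc,
          rot_cube hh, add_comm]
      obtain ⟨_, ⟨y, rfl⟩, o, ho, e⟩ := Submodule.mem_sup.1 (h2 _ hw)
      refine ⟨y, ?_⟩
      have e' := congrArg (pol 3 F) e
      rw [map_add, pol_eq_zero.2 ho, add_zero, map_smul, map_add, ← pa_pol (hR.mul hR),
        ← pa_pol hR, pol_lin_std, pa_mul hR, Module.End.mul_apply, hx, hx, ← two_smul F x,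
        smul_smul, inv_mul_cancel₀ two_ne_zero, one_smul] at e'
      exact e')
    (by
      obtain ⟨_, ⟨⟨x, rfl⟩, ho⟩, hx, e⟩ := h3
      refine ⟨x, fun h => hx (by rw [h, map_zero]), pol_eq_zero.2 ho, hT.inj ?_⟩
      rw [lin_ca hT h1, e])
    (fun x hx e => hT.inj (by
      rw [map_zero]
      refine h4 _ ⟨⟨x, rfl⟩, pol_eq_zero.1 hx⟩ ?_
      rw [← lin_ca hT h1, e, map_neg]))
  refine ⟨n, hn, fun τ τ' e => ?_⟩
  have e4 : algebraMap ℂ F 2⁻¹ = 2⁻¹ := by rw [map_inv₀, map_ofNat]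
  rw [pow_mul, ← hτ (τ ^ 2) (τ' ^ 2) (by rw [← mul_pow, e, one_pow]), chg_gau, pr, pr, ca_add,
    ca_add, ca_smul, ca_smul, ca_one hT, ca_mul hT _ h1, pa_add, pa_add, pa_smul, pa_smul, pa_one,
    pa_mul hR, gm, gm, e4]
  simp only [div_eq_inv_mul]

omit [Algebra ℂ A] [Algebra ℂ B] in
/-- A Laurent polynomial is determined by its values at the units of an infinite field. -/
theorem laurent_eq_zero {F : Type} [Field F] [Infinite F] {π : B →+* F} (hπ : Function.Injective π)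
    {e : B[T;T⁻¹]} (h : ∀ τ : Fˣ, LaurentPolynomial.eval₂ π τ e = 0) : e = 0 := by
  obtain ⟨k, q, hq⟩ := exists_T_pow e
  have h1 : q.map π = 0 := by
    refine Polynomial.eq_zero_of_infinite_isRoot _ (Set.Infinite.mono (s := {0}ᶜ) (fun x hx => ?_)
      (Set.finite_singleton (0 : F)).infinite_compl)
    have h2 := congrArg (LaurentPolynomial.eval₂ π (Units.mk0 x hx)) hq
    rw [map_mul, h, zero_mul, eval₂_toLaurent] at h2
    exact (Polynomial.eval_map π x).trans h2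
  rw [(Polynomial.map_eq_zero_iff hπ).1 h1, map_zero] at hq
  exact (isUnit_T (k : ℤ)).mul_left_eq_zero.1 hq.symm

end

end Vale.Agent.P286ER6
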